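import Vale.Agent.P057DP.Pl2
import Vale.Agent.P057SB.Nrs

/-!
Substitutions of vertices as actions on rows.
-/

set_option linter.all false

open Matrix Finset MvPolynomial
open Vale.Agent.P267.H775 Vale.Agent.P057G Vale.Agent.P057MA Vale.Agent.P057PC
open Vale.Agent.P057TP hiding ind
open Vale.Agent.P057GH Vale.Agent.P057DP
open Vale.Agent.P057SB hiding mem_b0 mem_st

namespace Vale.Agent.P057EF

noncomputable section

variable {C W X X₁ X₂ X₃ E : Type} {T : Tow} {cl : W → C} {m : ℕ} {R : Type} [CommRing R]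

theorem sub_sub0 {W₁ W₂ W₃ : Type} [Fintype W₁] [DecidableEq W₁] [Fintype W₂] [DecidableEq W₂]
    [Fintype W₃] [DecidableEq W₃] {cl₁ : W₁ → C} {cl₂ : W₂ → C} {cl₃ : W₃ → C}
    {M : W₂ → W₁ → ℤ} {M' : W₃ → W₂ → ℤ} (h1 : ∀ x v, M x v ≠ 0 → cl₂ x = cl₁ v)
    (h2 : ∀ x v, M' x v ≠ 0 → cl₃ x = cl₂ v) (z : Lb T cl₃ Empty m → R) :
    (sub M (sub M' z : Lb T cl₂ Empty m → R) : Lb T cl₁ Empty m → R) =
      sub (fun y v => ∑ x, M' y x * M x v) z := by
  funext k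
  rw [← sub_eq (M := fun y v => ∑ x, M' y x * M x v) (fun y v h => by
      obtain ⟨x, -, h3⟩ := exists_ne_zero_of_sum_ne_zero h
      exact (h2 y x (left_ne_zero_of_mul h3)).trans (h1 x v (right_ne_zero_of_mul h3))) z k rfl,
    sub_congr (z' := fun l => altL l.fc (ph R M' (P057TP.lift z none k.cd)))
      fun l e _ => (sub_eq h2 z l e).symm, ← key h1 k (ph_hom (lift_hom z none _)),
    ← RingHom.comp_apply]
  congr 2
  refine ringHom_ext (fun r => by simp only [RingHom.comp_apply, ph, sb_C]) fun w => ?_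
  cases w with
  | none => simp only [RingHom.comp_apply, ph, sb_none]
  | some w =>
    simp only [RingHom.comp_apply, ph, sb_some, map_sum, map_mul, sb_C, Int.cast_sum,
      Int.cast_mul, mul_sum, sum_mul, mul_assoc]
    exact sum_comm

variable [Fintype X] [DecidableEq X] [Fintype X₁] [DecidableEq X₁] [Fintype X₂] [DecidableEq X₂]
  [Fintype X₃] [DecidableEq X₃] {O : Ov W X} {O₁ : Ov W X₁} {O₂ : Ov W X₂} {O₃ : Ov W X₃}
  {M : X₂ → X₁ → ℤ} {M' : X₃ → X₂ → ℤ} {g : X₁ → X₂} {P : X → Prop} {P₁ : X₁ → Prop}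
  {P₂ : X₂ → Prop}

/-- a row times a matrix -/
def act (M : X₂ → X₁ → ℤ) (a : X₂ → ℤ) (v : X₁) : ℤ := ∑ x, a x * M x v

/-- the matrix respects the vertices -/
def Pm (O₂ : Ov W X₂) (O₁ : Ov W X₁) (M : X₂ → X₁ → ℤ) : Prop :=
  ∀ x v, M x v ≠ 0 → O₂.π x = O₁.π v

theorem Pm.cls (h : Pm O₂ O₁ M) (x : X₂ ⊕ Unit) (v : X₁ ⊕ Unit) (k : ex M x v ≠ 0) :
    O₂.cl cl Unit x = O₁.cl cl Unit v := by
  rcases x with x | x <;> rcases v with v | v
  exacts [congrArg (fun w => some (cl w)) (h x v k), (k rfl).elim, (k rfl).elim, rfl]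

theorem Pm.act (h : Pm O₂ O₁ M) (h' : Pm O₃ O₂ M') : Pm O₃ O₁ fun y => act M (M' y) :=
  fun y v k => by
    obtain ⟨x, -, h3⟩ := exists_ne_zero_of_sum_ne_zero k
    exact (h' y x (left_ne_zero_of_mul h3)).trans (h x v (right_ne_zero_of_mul h3))

theorem sub_act (h : Pm O₂ O₁ M) (h' : Pm O₃ O₂ M') (z : LT T cl m O₃ → R) :
    (sub (ex M) (sub (ex M') z : LT T cl m O₂ → R) : LT T cl m O₁ → R) =
      sub (ex fun y => act M (M' y)) z := by
  rw [sub_sub0 h.cls h'.cls]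
  refine congrArg (sub · z) (funext₂ ?_)
  rintro (y | y) (v | v) <;> simp [ex, act]

/-- the matrix of a map -/
def em (g : X₁ → X₂) (x : X₂) (v : X₁) : ℤ := if g v = x then 1 else 0

theorem pm_em (h : ∀ x, O₂.π (g x) = O₁.π x) : Pm O₂ O₁ (em g) := fun x v k =>
  (ite_ne_right_iff.1 k).1 ▸ h v

theorem act_em (a : X₂ → ℤ) (v : X₁) : act (em g) a v = a (g v) := by simp [act, em]

theorem lt_sub (h : ∀ x, O₂.π (g x) = O₁.π x) (hg : g.Injective) (z : LT T cl m O₂ → R) :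
    z ∘ lt h () = (sub (ex (em g)) z : LT T cl m O₁ → R) := by
  refine ((subc T _ _ _ m _ _ R).2 _ (hc_map h fun _ => ()) (hg.sumMap fun _ _ _ => rfl) z).trans
    (congrArg (sub · z) (funext₂ ?_))
  rintro (y | y) (v | v) <;> simp [ex, em]

theorem sub_lt (h : ∀ x, O₂.π (g x) = O₁.π x) (hg : g.Injective) (h' : Pm O₃ O₂ M')
    (z : LT T cl m O₃ → R) : (sub (ex M') z : LT T cl m O₂ → R) ∘ lt h () =
      (sub (ex fun y => M' y ∘ g) z : LT T cl m O₁ → R) := by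
  rw [lt_sub h hg, sub_act (pm_em h) h']
  exact congrArg (fun A => sub (ex A) z) (funext₂ fun y v => act_em _ _)

theorem Pm.comp (h : ∀ x, O₂.π (g x) = O₁.π x) (h' : Pm O₃ O₂ M') :
    Pm O₃ O₁ fun y => M' y ∘ g := fun y v k => (h' y _ k).trans (h v)

theorem ne_sub {p q : Prop} {_ : Decidable p} {_ : Decidable q}
    (h : ((if p then 1 else 0) - if q then 1 else 0 : ℤ) ≠ 0) : p ∨ q := by
  by_contra k
  rw [not_or] at k
  simp [k.1, k.2] at h

theorem abs_sub_ind {p q : Prop} {_ : Decidable p} {_ : Decidable q} :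
    |((if p then 1 else 0) - if q then 1 else 0 : ℤ)| ≤ 1 := by
  split_ifs <;> simp

variable [Fintype W] [DecidableEq W]

theorem sm_of (h : Pm O₂ O₁ M) (h1 : ∀ x v, |M x v| ≤ 1) (h2 : ∀ v, P₁ v → ∀ w,
      act M (fun x => if O₂.jk x ∧ O₂.π x = w then 1 else 0) v =
        if O₁.jk v ∧ O₁.π v = w then 1 else 0) (h3 : ∀ x v, M x v ≠ 0 → P₁ v → P₂ x) :
    Sm cl O₂ O₁ M P₂ P₁ :=
  ⟨fun x v k => congrArg cl (h x v k), h1, fun v k w => by
    simpa only [act, ite_mul, one_mul, zero_mul] using h2 v k w, h3⟩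

variable {Θ Θ' : (LT T cl m O → ℝ) → ℝ}

theorem fo_sub (h : Fo cl m O P Θ) (h' : Fo cl m O P Θ') : Fo cl m O P fun x => Θ x - Θ' x :=
  ⟨h.dp.map₂ h'.dp (· - ·), fun y => ⟨fun a b => by
    rw [(h.lin y).map_add, (h'.lin y).map_add]; ring, fun c a => by
    rw [(h.lin y).map_smul, (h'.lin y).map_smul, smul_sub]⟩⟩

theorem fo_add (h : Fo cl m O P Θ) (h' : Fo cl m O P Θ') : Fo cl m O P fun x => Θ x + Θ' x :=
  ⟨h.dp.map₂ h'.dp (· + ·), fun y => ⟨fun a b => by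
    rw [(h.lin y).map_add, (h'.lin y).map_add]; ring, fun c a => by
    rw [(h.lin y).map_smul, (h'.lin y).map_smul, smul_add]⟩⟩

theorem fo_lt (h : ∀ x, O₂.π (g x) = O₁.π x) (hP : ∀ x, P₁ x → P₂ (g x))
    {Θ : (LT T cl m O₁ → ℝ) → ℝ} (hΘ : Fo cl m O₁ P₁ Θ) :
    Fo cl m O₂ P₂ fun x => Θ (x ∘ lt h ()) := by
  have e : ∀ x y : LT T cl m O₂ → ℝ, mix (st T cl m O₂ fun _ => True) x y ∘ lt h () =
      mix (st T cl m O₁ fun _ => True) (x ∘ lt h ()) (y ∘ lt h ()) := fun x y => funext fun l =>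
    if_congr (by simp [mem_st, inr_lf, Unique.exists_iff]) rfl rfl
  refine ⟨dp_lt hP hΘ.dp, fun y => ?_⟩
  simp only [e]
  exact ⟨fun a b => (hΘ.lin _).map_add _ _, fun c a => (hΘ.lin _).map_smul _ _⟩

theorem dp_lt0 {α β : Type*} (h : ∀ x, O₂.π (g x) = O₁.π x) (hP : ∀ x, P₁ x → P₂ (g x))
    {f : (LT T cl m O₁ → α) → β} (hf : Dp (b0 T cl m O₁ Unit Empty P₁) f) :
    Dp (b0 T cl m O₂ Unit Empty P₂) fun z => f (z ∘ lt h ()) :=
  hf.comp fun _ hl => lf_b0 hP hl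

omit [Fintype X] [DecidableEq X] in
theorem dp_toR {ι β : Type} {q : Finset ι} {f : (ι → ℝ) → β} (hf : Dp q f) :
    Dp q fun z : ι → ℤ => f (toR z) := fun z z' hz =>
  hf _ _ fun i hi => congrArg Int.cast (hz i hi)

omit [Fintype X] [DecidableEq X] in
theorem dp_all {ι α κ : Type} {q : Finset ι} {f : κ → (ι → α) → Prop} (hf : ∀ k, Dp q (f k)) :
    Dp q fun z => ∀ k, f k z := fun z z' hz => by simp only [fun k => hf k z z' hz]

end

end Vale.Agent.P057EF
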