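import Vale.Agent.P057EF.Idn
import Vale.Agent.P057EA.Wem
import Vale.Agent.P057DP.Flp
import Vale.Agent.P057SR.Shr

/-!
From parallelograms to the joint system.
-/

set_option linter.all false

open Matrix Finset Real
open Vale.Agent.P267.H775 Vale.Agent.P057G Vale.Agent.P057PC
open Vale.Agent.P057TP hiding ind
open Vale.Agent.P057GH Vale.Agent.P057DP Vale.Agent.P057SG
open Vale.Agent.P057SB (nrs subp subc toR_sub)

namespace Vale.Agent.P057EF

noncomputable section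

variable {T : Tow} {s m : ℕ} {N : ℝ}

theorem fo_alq {C W E : Type} [Fintype W] [DecidableEq W] [Fintype E] [DecidableEq E] {πE : E → W}
    {cl : W → C} {b : C} {Z : Sys T W Unit} (hT : T.Ok s N) (hZ : Z.Ok)
    {θ : (LT T cl m (Ov.one W) → ℝ) → ℝ} (h : Fo cl m (Ov.one W) (fun _ => True) θ) :
    Fo cl m (Op πE) (Pp cl b) (alq πE b θ) := by
  have k := fun (i d : Fin 4) hi hd => ((nrs T s N _ _ _ _ Z cl m _ _ _ _ _ hT hZ
    (sm_q (πE := πE) (b := b) (i := i) (d := d) hi hd)).2 _ (fo_lt (O₁ := Ov.one W) (O₂ := px πE)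
      (g := Sum.inr) (fun _ => rfl) (fun _ _ => trivial) h)).1
  exact fo_add (fo_sub (fo_sub (k 0 2 (by decide) (by decide)) (k 0 3 (by decide) (by decide)))
    (k 1 2 (by decide) (by decide))) (k 1 3 (by decide) (by decide))

theorem nr_cp {C W X : Type} [Fintype W] [DecidableEq W] [Fintype X] [DecidableEq X] {O : Ov W X}
    {cl : W → C} {Z : Sys T W Unit} {P D : X → Prop} {ω K : ℝ} {Θ : (LT T cl m O → ℝ) → ℝ}
    (hT : T.Ok s N) (hZ : Z.Ok) (hω : 0 < ω) (hK : 0 ≤ K)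
    (hΘ : Dp (b0 T cl m O Unit Empty P ∪ st T cl m O P) Θ) {c : Bool} {y : LT T cl m O.dbl → ℤ}
    (h : NR cl m Z O ω P Θ K (toR (y ∘ lt (g := cp D c) (fun _ => rfl) ()))) :
    NR cl m Z O.dbl ω (P2 P D) (fun x => Θ (x ∘ lt (g := cp D c) (fun _ => rfl) ())) K (toR y) := by
  refine NR.up hT hZ hω hK ?_ (dp_lt (g := cp D c) (fun x k => ⟨x, k, rfl⟩) hΘ)
    ((nr_emb (O₁ := O) (O₂ := O.dbl) (g := cp D c) (fun _ => rfl) (cp_inj D c) (fun _ => rfl)
      (P₂ := fun x => ∃ y, P y ∧ cp D c y = x) fun _ => Iff.rfl).2 h)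
  rintro _ ⟨y, k, rfl⟩
  exact ⟨k, by by_cases e : D y <;> simp [cp, e]⟩

variable {n p n' : ℕ} {R κ : Type} [Fintype R] [DecidableEq R] {Z : Sys T (Uv n p R) Unit}
  {b : Fin n} {L η γ lam μ K K' δ : ℝ}

theorem gg_p (x) (h : P4 b x) : P2 (Pp cU (some b)) (Dx b) (gg n p R x) := by
  rcases x with ⟨x, i⟩ | x
  · rcases h with h | h
    · fin_cases i <;> simp_all [gg, P2, Pp, Dx, cU]
    · obtain rfl : i = 0 := h
      simp [gg, P2, Pp]
  · simp [gg, P2, Pp]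

theorem gg_r (x) (h : P2 (Pp cU (some b)) (Dx b) x) :
    (∃ y, P4 b y ∧ gg n p R y = x) ∨ cU ((Oq n p R).dbl.π x) = some b := by
  rcases x with ⟨x | ⟨x, i⟩, c⟩
  · refine Or.inl ⟨Sum.inl (x, if c then 1 else 0), ?_⟩
    cases c <;> simp_all [gg, P4, P2, Dx]
  · obtain rfl : c = false := h.2.resolve_right id
    exact h.1.imp_left fun k : i = 0 => ⟨Sum.inr x, trivial, k ▸ rfl⟩

theorem gg_j (x) : (Oq n p R).dbl.jk (gg n p R x) = (O4 n p R).jk x := by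
  rcases x with ⟨x, i⟩ | x
  · fin_cases i <;> rfl
  · rfl

theorem gg_s (x) (h : P4 b x) :
    (σp (fun _ => lam) (lam * μ) ∘ Prod.fst) (gg n p R x) = s4 b lam μ x := by
  rcases x with ⟨x, i⟩ | x
  · fin_cases i <;> simp_all [gg, P4, s4, σp]
  · rfl

theorem core (hD : DBL) (hW : WIT) (hE : Env s N (n + 2) Z n' L η)
    (hn : 4 * (2 * Fintype.card (Wv n p ⊕ Uv n p R × Fin 4) + 1) ≤ n')
    (hS : Sb s L (σp (fun _ : Wv n p => lam) (lam * μ) : _ ⊕ Uv n p R × _ → ℝ)) (hγ : 0 < γ)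
    (hK : 0 ≤ K) (h1 : 1 ≤ K') (hL : 36 * K' ^ 2 * γ ≤ L)
    (h2 : 2 * (2 ^ (2 * Fintype.card (Wv n p ⊕ Uv n p R × Fin 4)) * K) ≤ K') (hδ : 0 ≤ δ)
    (h3 : 2 ^ Fintype.card (Wv n p ⊕ Uv n p R × Fin 4) * δ ≤ 1) (h4 : 1 ≤ δ ^ 2 * lam)
    {Θ : κ → (Lb T (cU : Uv n p R → _) Unit (n + 2) → ℝ) → ℝ}
    {V : (LT T cU (n + 2) (O0 n p R) → ℤ) → Prop}
    (hΘ : ∀ a, Fo cU (n + 2) (Ov.one _) (fun _ => True) fun u => Θ a (dc u))
    (hV : Dp (b0 T cU (n + 2) (O0 n p R) Unit Empty fun _ => True) V) :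
    ∃ d1 d2 : ℝ, dn cU (n + 2) Z (Op Sum.inl) (σp (fun _ => lam) (lam * μ)) (Pp cU (some b))
      (fun z => V (sub (ex (M0 Sum.inl)) (sub (ex (Mq Sum.inl cU (some b) 0 2)) z :
          LT T cU (n + 2) (px Sum.inl) → ℤ)) ∧
        ∀ a, NR cU (n + 2) Z (Op Sum.inl) γ (Pp cU (some b))
          (alq Sum.inl (some b) fun u => Θ a (dc u)) K (toR z)) ≤ d1 +
        (2 * η + 3 * 2 ^ Fintype.card (Wv n p ⊕ Uv n p R × Fin 4) * δ *
          Fintype.card (LT T cU (n + 2) (Oq n p R))) ∧ d1 ^ 2 ≤ 2 * d2 ∧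
      d2 ^ 2 ≤ 2 * dn cU (n + 2) Z (O4 n p R) (s4 b lam μ) (P4 b) (fun z =>
        V (sub (ex (M4 b 0 2)) z) ∧
        ∀ r, NR cU (n + 2) Z (O4 n p R) γ (P4 b) (fun x => Θ r (rm (sub (ex (M4 b 0 2)) x)) -
          Θ r (rm (sub (ex (M4 b 0 3)) x)) - Θ r (rm (sub (ex (M4 b 1 2)) x)) +
          Θ r (rm (sub (ex (M4 b 1 3)) x))) K' (toR z)) + 12 * √η := by
  have hT := hE.ok
  have hZ := hE.zok
  have n1 := nrs T s N _ _ _ _ Z cU (n + 2) _ _ _ _ _ hT hZ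
    (sm_1 (πE := (Sum.inl : Wv n p → Uv n p R)) (cl := cU) (b := some b) (ε := 1) (by simp))
  have f1 := fun a => n1.2 _ (fo_alq hT hZ (hΘ a))
  have f4 := fun a (i d : Fin 4) hi => ((nrs T s N _ _ _ _ Z cU (n + 2) _ _ _ _ _ hT hZ
    (sm_4 (b := b) (c := i) (c' := d) hi)).2 _
      ((nrs T s N _ _ _ _ Z cU (n + 2) _ _ _ _ _ hT hZ sm_p).2 _ (hΘ a)).1).1
  have up : ∀ {ε : ℤ} x v, M1 (Sum.inl : Wv n p → Uv n p R) ε x v ≠ 0 → Pp cU (some b) x →
      Pp cU (some b) v := fun x v k h => by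
    rcases ne_1 k with rfl | ⟨-, rfl⟩
    exacts [h, Or.inl rfl]
  have k1 := hD T s N _ _ _ Z cU (n + 2) (Oq n p R) _ (Pp cU (some b)) (Dx b) (some b) n' L η _ hE
    (by omega) hS (by rintro (x | x) k; exacts [congrArg some k, k.elim])
    ((n1.1 _ _ ((nrs T s N _ _ _ _ Z cU (n + 2) _ _ _ _ _ hT hZ (sm_q (i := 0) (d := 2) (by decide)
      (by decide))).1 _ _ ((nrs T s N _ _ _ _ Z cU (n + 2) _ _ _ _ _ hT hZ sm_0).1 _ _ hV))).map₂
      (dp_all fun a => dp_toR (NR.dp (Z := Z) (ω := γ) (κ := 2 ^ (2 * Fintype.card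
        (Wv n p ⊕ Uv n p R × Fin 4)) * K) hT hZ (f1 a).1.dp)) And)
  have k2 := P057EA.wit_emb hW h_gg gg_inj (σ₁ := s4 b lam μ) (P₁ := P4 b) gg_j gg_s gg_p
    (some b) gg_r hE (by rw [Fintype.card_prod, Fintype.card_bool]; omega) (hS.comp Prod.fst) hγ h1
    hL ((nrs T s N _ _ _ _ Z cU (n + 2) _ _ _ _ _ hT hZ (sm_4 (c := 0) (c' := 2) (by decide))).1
      _ _ hV) fun a => fo_add (fo_sub (fo_sub (f4 a 0 2 (by decide)) (f4 a 0 3 (by decide)))
        (f4 a 1 2 (by decide))) (f4 a 1 3 (by decide))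
  refine ⟨_, _, (P057SR.shr subp subc T s N _ _ _ Z cU (n + 2) _ _ _ _ _ n' L η δ _ hT hZ
    (sm_1 (ε := 1) (by simp)) (sm_1 (by simp)) up up inv_1 (inv_1 (ε := -1)) (fun x => (hS x).1) hδ
      h3 (fun x v k => (ne_1 k).imp_right ?_) hE.al hE.η1 (by omega)
      (hS.sc_le hT hE.L4)).trans (add_le_add (dn_mono hT hZ hS.pos fun z k => ?_) le_rfl),
    k1.trans (mul_le_mul_of_nonneg_left (dn_mono hT hZ (hS.comp Prod.fst).pos fun z k => ?_)
      zero_le_two), k2⟩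
  · rintro ⟨k1, rfl⟩
    obtain ⟨e, rfl⟩ := Sum.isLeft_iff.1 k1
    exact h4
  · exact ⟨k.1, fun a => two_mul (Fintype.card (Wv n p ⊕ Uv n p R × Fin 4)) ▸
      (f1 a).2 γ K _ hγ hK (toR_sub z ▸ k.2 a)⟩
  refine ⟨(congrArg V (id_v z)).mp k.1.1, fun a => ?_⟩
  refine NL.mono (((nr_cp hT hZ hγ (by positivity) (f1 a).1.dp (k.1.2 a)).sub
    (nr_cp hT hZ hγ (by positivity) (f1 a).1.dp (k.2.2 a))).congr fun x => ?_) (by linarith)
  simp only [alq, id_0 (d := 2) (by decide), id_0 (d := 3) (by decide), id_1 (d := 2) (by decide),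
    id_1 (d := 3) (by decide)]
  exact (by intros; ring : ∀ a b c d e f : ℝ, a - b - c + d - (e - f - c + d) = a - b - e + f)
    _ _ _ _ _ _

theorem num {u t a b d : ℝ} (h0 : 0 < u) (h1 : 896 * u ≤ 1) (h2 : t ≤ u ^ 5) (ha : u / 2 ≤ a)
    (hb : a ^ 2 ≤ 2 * b) (hd : b ^ 2 ≤ 2 * d + 12 * t) : t ≤ d := by
  have k1 := pow_le_pow_left₀ (by positivity) ha 2
  have k2 := pow_le_pow_left₀ (by positivity) (show u ^ 2 / 8 ≤ b by linarith) 2
  nlinarith [mul_le_mul_of_nonneg_left h1 (pow_pos h0 4).le]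

theorem e3 {x z : ℝ} (k : x + 36 ≤ z) : 36 * exp x ≤ exp z :=
  le_trans (by rw [exp_add]; nlinarith [add_one_le_exp 36, exp_pos x]) (exp_le_exp.2 k)

theorem e2 {k : ℕ} {x : ℝ} (h : k ≤ x) : (2 : ℝ) ^ k ≤ exp x := by
  refine le_trans ?_ (exp_le_exp.2 h)
  rw [← mul_one (k : ℝ), exp_nat_mul]
  exact pow_le_pow_left₀ zero_le_two (by linarith [add_one_le_exp 1]) k

theorem p3 {x : ℝ} (k : 50 ≤ x) : 50 * x ^ 2 ≤ x ^ (s + 50) ∧ 50 * x ≤ x ^ 2 :=
  ⟨le_trans (by nlinarith) (pow_le_pow_right₀ (by linarith) (show 3 ≤ s + 50 by omega)),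
    by nlinarith⟩

theorem num2 {y B B' c d1 : ℝ} {x : ℕ} (y1 : (s : ℝ) + 50 ≤ y) (y2 : 50 * y ^ 2 ≤ B)
    (hB : B ≤ B') (hx : x ≤ 5 * y) (c0 : 0 ≤ c) (hc : c ≤ (s + 1) * exp y * (exp y + 1) ^ (s + 1))
    (h : exp (-y) ≤ d1 + (2 * exp (-B') + 3 * 2 ^ x * exp (-B / 2) * c)) : exp (-y) / 2 ≤ d1 := by
  have s0 : (0 : ℝ) ≤ s := Nat.cast_nonneg s
  have y3 := (p3 (s := s) (show 50 ≤ y by linarith)).2
  have y4 := add_one_le_exp y
  have c3 : c ≤ exp (y + y + y * (2 * y)) := by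
    refine hc.trans ?_
    rw [exp_add, exp_add]
    gcongr
    · linarith
    refine (pow_le_pow_left₀ (by positivity) (show _ ≤ exp (2 * y) by
      rw [two_mul, exp_add]; nlinarith) _).trans ?_
    rw [← exp_nat_mul]
    exact exp_le_exp.2 (by push_cast; nlinarith)
  have c4 := e3 (x := 5 * y + -B / 2 + (y + y + y * (2 * y))) (z := -y) (by linarith)
  rw [exp_add, exp_add] at c4
  have c5 := mul_le_mul (mul_le_mul_of_nonneg_right (e2 hx) (exp_pos (-B / 2)).le) c3 c0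
    (by positivity)
  linarith [e3 (x := -B') (z := -y) (by linarith), exp_pos (-y)]

theorem fin (hD : DBL) (hW : WIT) (s : ℕ) : FIN s := by
  refine ⟨s + 50, by omega,
    fun T N n p R κ _ _ Z b y A γ lam μ θ Θ V hE g1 g2 l1 m1 l2 hθ hF hV h => ?_⟩
  obtain rfl := funext hθ
  have y1 : (s : ℝ) + 50 ≤ y := by exact_mod_cast hE.cy
  have s0 : (0 : ℝ) ≤ s := Nat.cast_nonneg s
  have yA := hE.yA
  obtain ⟨y2, y3⟩ := p3 (s := s) (show 50 ≤ y by linarith)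
  obtain ⟨A2, A5⟩ := p3 (s := s) (show 50 ≤ A by linarith)
  have A3 : y ^ (s + 50) ≤ A ^ (s + 50) := pow_le_pow_left₀ (by linarith) yA _
  have A4 : y ^ 2 ≤ A ^ 2 := pow_le_pow_left₀ (by linarith) yA _
  have y4 := quadratic_le_exp_of_nonneg (show 0 ≤ y by linarith)
  have cX : (Fintype.card (Wv n p ⊕ Uv n p R × Fin 4) : ℝ) ≤ 5 * y := by
    have := hE.cW
    simp only [Fintype.card_sum, Fintype.card_prod _ (Fin 4), Fintype.card_fin] at this ⊢
    push_cast at this ⊢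
    linarith [Nat.cast_nonneg (α := ℝ) (Fintype.card R)]
  have l0 : 1 ≤ lam := (one_le_exp (by linarith)).trans l1
  have l3 : lam ≤ lam * μ := le_mul_of_one_le_right (by linarith) m1
  have cL := card_lk (cl := cU) (m := n + 2) (O := Oq n p R) (K := Unit) (S := Empty) hE.ok hE.dm
    (show (_ : ℝ) + (1 : ℕ) + (0 : ℕ) ≤ _ by push_cast; linarith)
  have A6 : exp (-A ^ (s + 50)) ≤ exp (-y ^ (s + 50) / 2) ^ 2 := by
    rw [← exp_nat_mul]
    exact exp_le_exp.2 (by push_cast; linarith)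
  have t1 : exp (-y ^ (s + 50) / 2) ≤ exp (-y) ^ 5 := by
    rw [← exp_nat_mul]
    exact exp_le_exp.2 (by push_cast; linarith)
  have t2 : 896 * exp (-y) ≤ 1 := by
    rw [Real.exp_neg, ← div_eq_mul_inv, div_le_one (exp_pos _)]
    linarith
  obtain ⟨d1, d2, k1, k2, k3⟩ := core (b := b) (lam := lam) (μ := μ) (K := exp y)
    (K' := exp (y ^ 2)) (δ := exp (-y ^ (s + 50) / 2)) hD hW (hE.env (by omega))
    (Nat.le_floor (by push_cast; linarith)) (fun x => by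
      have : 1 ≤ σp (fun _ => lam) (lam * μ) x ∧ σp (fun _ => lam) (lam * μ) x ≤ exp A := by
        rcases x with x | x
        · exact ⟨l0, l3.trans l2⟩
        · simp only [σp, Sum.elim_inr]
          split_ifs
          exacts [⟨le_rfl, g1.trans g2⟩, ⟨l0.trans l3, l2⟩]
      have k := pow_le_pow_left₀ (zero_le_one.trans this.1) this.2 s
      rw [← exp_nat_mul] at k
      exact ⟨this.1, le_trans (by linarith only [k, exp_pos (s * A)]) (e3 (x := s * A) (by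
        linarith [mul_le_mul_of_nonneg_right (show s ≤ A by linarith) (show 0 ≤ A by linarith)]))⟩)
    (one_pos.trans_le g1) (exp_pos _).le (one_le_exp (by positivity)) (by
      refine le_trans ?_ (e3 (x := 2 * y ^ 2 + A) (by linarith))
      rw [exp_add, ← mul_assoc, two_mul, exp_add, ← sq]
      gcongr) (by
      refine le_trans ?_ (e3 (x := 10 * y + y) (by linarith))
      rw [exp_add]
      gcongr
      · norm_num
      · exact e2 (by push_cast; linarith)) (exp_pos _).le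
    ((mul_le_mul_of_nonneg_right (e2 cX) (exp_pos _).le).trans (by
      rw [← exp_add]; exact exp_le_one_iff.2 (by linarith))) (by
      refine le_trans (le_of_eq ?_) (mul_le_mul_of_nonneg_left l1 (sq_nonneg _))
      rw [← exp_nat_mul, ← exp_add, ← exp_zero]
      congr 1; push_cast; ring) hF hV
  refine (exp_le_exp.2 (by linarith)).trans ((num (exp_pos _) t2 t1
    (num2 y1 y2 A3 cX (Nat.cast_nonneg _) cL (h.trans k1)) k2 (k3.trans (add_le_add le_rfl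
      (mul_le_mul_of_nonneg_left (sqrt_le_iff.2 ⟨(exp_pos _).le, A6⟩) (by norm_num))))).trans
    (dn_mono hE.ok hE.zok (fun x => ?_) fun z k => ?_))
  · rcases x with x | x <;> simp only [s4, Sum.elim_inl, Sum.elim_inr, one_pos]
    split_ifs <;> linarith
  · exact ⟨k.1, fun r => (k.2 r).mono (exp_le_exp.2 (by linarith))⟩

end

end Vale.Agent.P057EF
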