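import Vale.Agent.P057EF.Mat

/-!
The points of the doubled parallelogram as points of the joint system.
-/

set_option linter.all false

open Matrix Finset
open Vale.Agent.P267.H775 Vale.Agent.P057G Vale.Agent.P057PC
open Vale.Agent.P057TP hiding ind
open Vale.Agent.P057GH Vale.Agent.P057DP Vale.Agent.P057SG

namespace Vale.Agent.P057EF

noncomputable section

variable {n p m : ℕ} {R : Type} [Fintype R] [DecidableEq R] {b : Fin n} {i j d : Fin 4} {c : Bool}
  {T : Tow} {S : Type} [CommRing S]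

/-- the joint vertices among the doubled vertices -/
def gg (n p : ℕ) (R : Type) :
    (Wv n p × Fin 4) ⊕ Uv n p R → (Wv n p ⊕ Uv n p R × Fin 4) × Bool :=
  Sum.elim (fun v => if v.2 < 2 then (Sum.inl v.1, decide (v.2 = 1))
    else (Sum.inr (Sum.inl v.1, v.2), false)) fun v => (Sum.inr (v, 0), false)

/-- the live parts of the class `b` -/
def Dx (b : Fin n) : Wv n p ⊕ Uv n p R × Fin 4 → Prop := Sum.elim (fun e => e.1 = b) fun _ => False

/-- the vertices of the parallelogram -/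
abbrev Oq (n p : ℕ) (R : Type) : Ov (Uv n p R) (Wv n p ⊕ Uv n p R × Fin 4) := Op Sum.inl

theorem h_gg (x) : (Oq n p R).dbl.π (gg n p R x) = (O4 n p R).π x := by
  rcases x with ⟨x, i⟩ | x
  · by_cases k : i < 2 <;> simp [gg, k, Ov.dbl, Op, O4]
  · rfl

theorem gg_inj : (gg n p R).Injective := by
  rintro (⟨x, i⟩ | x) (⟨y, j⟩ | y) <;> simp only [gg, Sum.elim_inl, Sum.elim_inr]
  · fin_cases i <;> fin_cases j <;> simp
  · fin_cases i <;> simp
  · fin_cases j <;> simp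
  · simp

theorem cp_inj {X : Type} (D : X → Prop) (c : Bool) : (cp D c).Injective :=
  fun _ _ e => congrArg Prod.fst e

/-- the copy `c` of the parallelogram -/
abbrev cl2 (b : Fin n) (c : Bool) : LT T cU m (Oq n p R) → LT T cU m (Oq n p R).dbl :=
  lt (g := cp (Dx b) c) (fun _ => rfl) ()

/-- the rows of the point `(i, d)` of the copy `c` -/
def rw2 (b : Fin n) (i d : Fin 4) (c : Bool) (a : (Wv n p ⊕ Uv n p R × Fin 4) × Bool → ℤ) :
    Wv n p ⊕ Uv n p R → ℤ :=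
  act (Mq Sum.inl cU (some b) i d) (act (M1 Sum.inl 1) (a ∘ cp (Dx b) c))

theorem pm_rw : Pm (Oq n p R).dbl (px Sum.inl) fun y => rw2 b i d c fun u => if u = y then 1 else 0 :=
  pm_q.act (pm_1.act (pm_em (O₁ := Oq n p R) (g := cp (Dx b) c) fun _ => rfl))

theorem ch_l (x : LT T cU m (Oq n p R).dbl → S) :
    (sub (ex (Mq Sum.inl cU (some b) i d)) (sub (ex (M1 Sum.inl 1)) (x ∘ cl2 b c) :
      LT T cU m (Oq n p R) → S) : LT T cU m (px Sum.inl) → S) =
      sub (ex fun y => rw2 b i d c fun u => if u = y then 1 else 0) x := by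
  have e := pm_em (O₁ := Oq n p R) (O₂ := (Oq n p R).dbl) (g := cp (Dx b) c) fun _ => rfl
  rw [show x ∘ cl2 b c = _ from lt_sub _ (cp_inj _ c) x, sub_act pm_1 e, sub_act pm_q (pm_1.act e)]
  rfl

theorem ch_i (x : LT T cU m (Oq n p R).dbl → S) :
    (sub (ex (Mq Sum.inl cU (some b) i d)) (sub (ex (M1 Sum.inl 1)) (x ∘ cl2 b c) :
      LT T cU m (Oq n p R) → S) : LT T cU m (px Sum.inl) → S) ∘ ri Sum.inl =
      sub (ex fun y => (rw2 b i d c fun u => if u = y then 1 else 0) ∘ Sum.inr) x := by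
  rw [ch_l]
  exact sub_lt (O₁ := Ov.one _) (O₂ := px Sum.inl) (fun _ => rfl) Sum.inr_injective pm_rw x

theorem ch_r (x : LT T cU m (Oq n p R).dbl → S) :
    (sub (ex (M4 b i j)) (x ∘ lt h_gg () : LT T cU m (O4 n p R) → S) : LT T cU m (O0 n p R) → S) =
      sub (ex fun y => act (M4 b i j) ((fun u => if u = y then 1 else 0) ∘ gg n p R)) x := by
  rw [lt_sub _ gg_inj, sub_act pm_4 (pm_em h_gg)]
  rfl

theorem rw_0 (hd : ¬ d < 2) (a : (Wv n p ⊕ Uv n p R × Fin 4) × Bool → ℤ) :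
    rw2 b 0 d c a ∘ Sum.inr = act (Mp n p R) (act (M4 b (if c then 1 else 0) d) (a ∘ gg n p R)) := by
  have k0 : d ≠ 0 := by rintro rfl; exact hd (by decide)
  have k1 : (if c then 1 else 0) ≠ d := by cases c <;> rintro rfl <;> exact hd (by decide)
  funext w
  simp only [act_p, act_4 k1, Function.comp_apply, rw2, act_q, act_1]
  rcases w with w | w
  · by_cases k : w.1 = b <;> cases c <;> simp [k, cU, px, Op, cp, Dx, gg, hd, k0, add_assoc]
  · simp [cU, px, Op, cp, Dx, gg]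

theorem rw_1 (a : (Wv n p ⊕ Uv n p R × Fin 4) × Bool → ℤ) (hd : ¬ d < 2) :
    rw2 b 1 d false a ∘ Sum.inr = rw2 b 1 d true a ∘ Sum.inr := by
  have k0 : d ≠ 0 := by rintro rfl; exact hd (by decide)
  funext w
  simp only [Function.comp_apply, rw2, act_q, act_1]
  rcases w with w | w
  · by_cases k : w.1 = b <;> simp [k, cU, px, Op, cp, Dx, k0]
  · simp [cU, px, Op, cp, Dx]

theorem rw_v (a : (Wv n p ⊕ Uv n p R × Fin 4) × Bool → ℤ) :
    act (M0 Sum.inl) (rw2 b 0 2 false a) = act (M4 b 0 2) (a ∘ gg n p R) := by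
  funext v
  rw [act_0, act_4 (by decide)]
  simp only [rw2, act_q, act_1]
  rcases v with w | w | w
  · by_cases k : w.1 = b <;> simp [k, cU, px, Op, cp, Dx, gg]
  · by_cases k : w.1 = b <;> simp [k, cU, px, Op, cp, Dx, gg]
  · simp [cU, px, Op, cp, Dx, gg]

theorem id_0 (hd : ¬ d < 2) (x : LT T cU (n + 2) (Oq n p R).dbl → ℝ) :
    dc ((sub (ex (Mq Sum.inl cU (some b) 0 d)) (sub (ex (M1 Sum.inl 1)) (x ∘ cl2 b c) :
      LT T cU (n + 2) (Oq n p R) → ℝ) : LT T cU (n + 2) (px Sum.inl) → ℝ) ∘ ri Sum.inl) =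
      rm (sub (ex (M4 b (if c then 1 else 0) d))
        (x ∘ lt h_gg () : LT T cU (n + 2) (O4 n p R) → ℝ)) := by
  rw [ch_i, ch_r]
  simp only [rw_0 hd]
  exact congrArg dc (sub_act pm_p (pm_4.act (pm_em h_gg)) x).symm

theorem id_1 (hd : ¬ d < 2) (x : LT T cU m (Oq n p R).dbl → ℝ) :
    (sub (ex (Mq Sum.inl cU (some b) 1 d)) (sub (ex (M1 Sum.inl 1)) (x ∘ cl2 b false) :
      LT T cU m (Oq n p R) → ℝ) : LT T cU m (px Sum.inl) → ℝ) ∘ ri Sum.inl =
    (sub (ex (Mq Sum.inl cU (some b) 1 d)) (sub (ex (M1 Sum.inl 1)) (x ∘ cl2 b true) :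
      LT T cU m (Oq n p R) → ℝ) : LT T cU m (px Sum.inl) → ℝ) ∘ ri Sum.inl := by
  simp only [ch_i, rw_1 _ hd]

theorem id_v (x : LT T cU m (Oq n p R).dbl → ℤ) :
    (sub (ex (M0 Sum.inl)) (sub (ex (Mq Sum.inl cU (some b) 0 2)) (sub (ex (M1 Sum.inl 1))
      (x ∘ cl2 b false) : LT T cU m (Oq n p R) → ℤ) : LT T cU m (px Sum.inl) → ℤ) :
        LT T cU m (px Sum.inl) → ℤ) =
      (sub (ex (M4 b 0 2)) (x ∘ lt h_gg () : LT T cU m (O4 n p R) → ℤ) :
        LT T cU m (O0 n p R) → ℤ) := by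
  rw [ch_l, ch_r, sub_act pm_0 pm_rw]
  simp only [rw_v]
  rfl

end

end Vale.Agent.P057EF
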