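import Vale.Agent.P057EF.Act

/-!
The matrices of the last step.
-/

set_option linter.all false

open Matrix Finset
open Vale.Agent.P267.H775 Vale.Agent.P057G Vale.Agent.P057MA Vale.Agent.P057PC
open Vale.Agent.P057TP hiding ind
open Vale.Agent.P057GH Vale.Agent.P057DP Vale.Agent.P057SG

namespace Vale.Agent.P057EF

noncomputable section

section gen

variable {C W E : Type} [Fintype W] [DecidableEq W] [Fintype E] [DecidableEq E] {πE : E → W}
  {cl : W → C} {b : C} {i d : Fin 4}

open Classical in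
theorem act_q (a : E ⊕ W × Fin 4 → ℤ) (v : E ⊕ W) : act (Mq πE cl b i d) a v =
    a (v.map id fun w => (w, if cl w = b then i else 0)) -
      if cl ((px πE).π v) = b then a (Sum.inr ((px πE).π v, d)) else 0 := by
  by_cases k : cl ((px πE).π v) = b <;> simp [act, Mq, k, mul_sub, -Fintype.sum_sum_type]

theorem pm_q : Pm (Op πE) (px πE) (Mq πE cl b i d) := fun x v k => by
  rcases ne_sub k with rfl | ⟨-, rfl⟩ <;> cases v <;> rfl

theorem sm_q (hi : i < 2) (hd : ¬ d < 2) :
    Sm cl (Op πE) (px πE) (Mq πE cl b i d) (Pp cl b) fun _ => True := by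
  refine sm_of pm_q (fun _ _ => abs_sub_ind) (fun v _ w => ?_) fun x v k _ => ?_
  · rw [act_q]
    rcases v with v | v
    · by_cases k : cl (πE v) = b <;> simp [Op, px, hd, k]
    · by_cases k : cl v = b <;> simp [Op, px, hd, hi, k]
  · rcases ne_sub k with rfl | ⟨k2, rfl⟩
    · rcases v with v | v
      · trivial
      · by_cases k : cl v = b <;> simp [Pp, k]
    · exact Or.inr k2

theorem pm_0 : Pm (px πE) (px πE) (M0 πE) := fun x v k => by
  rcases ne_sub k with rfl | ⟨-, rfl⟩ <;> rfl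

theorem sm_0 : Sm cl (px πE) (px πE) (M0 πE) (fun _ => True) fun _ => True := by
  refine sm_of pm_0 (fun _ _ => abs_sub_ind) (fun v _ w => ?_) fun _ _ _ _ => trivial
  rcases v with v | v <;> simp [act, M0, px, mul_sub]

open Classical in
/-- the shear of the points and the reflection of the shifts -/
def M1 (πE : E → W) (ε : ℤ) (x v : E ⊕ W × Fin 4) : ℤ :=
  (if x = v then if (Op πE).jk v ∨ v.isLeft then 1 else -1 else 0) +
    if x.isLeft ∧ v = Sum.inr ((Op πE).π x, 0) then ε else 0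

variable {ε : ℤ}

theorem ne_1 {x v : E ⊕ W × Fin 4} (k : M1 πE ε x v ≠ 0) :
    x = v ∨ x.isLeft ∧ v = Sum.inr ((Op πE).π x, 0) := by
  by_contra h
  rw [not_or] at h
  exact k (by rw [M1, if_neg h.1, if_neg h.2, add_zero])

theorem pm_1 : Pm (Op πE) (Op πE) (M1 πE ε) := fun x v k => by
  rcases ne_1 k with rfl | ⟨-, rfl⟩ <;> rfl

theorem act_1 (a : E ⊕ W × Fin 4 → ℤ) (v : E ⊕ W × Fin 4) : act (M1 πE ε) a v =
    (if (Op πE).jk v ∨ v.isLeft then a v else -a v) +
      ε * ∑ e, if v = Sum.inr (πE e, 0) then a (Sum.inl e) else 0 := by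
  simp only [act, M1, mul_add, sum_add_distrib, mul_ite, mul_zero, sum_ite_eq', mem_univ, if_true,
    mul_one, mul_neg, mul_sum]
  simp [Op, mul_comm]

theorem sm_1 (h : |ε| ≤ 1) : Sm cl (Op πE) (Op πE) (M1 πE ε) (Pp cl b) (Pp cl b) := by
  refine sm_of pm_1 (fun x v => ?_) (fun v _ w => ?_) fun x v k h => ?_
  · unfold M1
    by_cases k : x.isLeft ∧ v = Sum.inr ((Op πE).π x, 0)
    · rw [if_pos k, if_neg fun k2 : x = v =>
        Bool.false_ne_true ((congrArg Sum.isLeft (k2.trans k.2)).symm.trans k.1), zero_add]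
      exact h
    · rw [if_neg k, add_zero]
      split_ifs <;> simp
  · rw [act_1]
    by_cases k : (Op πE).jk v <;> simp [k] <;> simp [Op]
  · rcases ne_1 k with rfl | ⟨k2, -⟩
    · exact h
    · obtain ⟨e, rfl⟩ := Sum.isLeft_iff.1 k2
      trivial

theorem inv_1 (x v : E ⊕ W × Fin 4) :
    ∑ y, M1 πE ε x y * M1 πE (-ε) y v = if x = v then 1 else 0 := by
  refine (act_1 _ v).trans ?_
  rcases x with x | ⟨x, i⟩ <;> rcases v with v | ⟨v, j⟩
  · simp [M1]
  · rw [sum_eq_single x (fun e _ k => by simp [M1, k.symm]) (by simp)]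
    by_cases k : v = πE x ∧ j = 0
    · simp [M1, Op, k.1, k.2]
    · simp [M1, Op, k]
  · simp [M1]
  · by_cases k : x = v ∧ i = j <;> by_cases k2 : j < 2 <;> simp [M1, Op, k, k2]

end gen

variable {n p : ℕ} {R : Type} [Fintype R] [DecidableEq R] {b : Fin n} {c c' : Fin 4}

theorem act_0 (a : Wv n p ⊕ Uv n p R → ℤ) (v : Wv n p ⊕ Uv n p R) : act (M0 Sum.inl) a v =
    a v - v.elim (fun _ => 0) (Sum.elim (fun e => a (Sum.inl e)) fun _ => 0) := by
  rcases v with v | v | v <;> simp [act, M0, px, mul_sub]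

/-- the sum of a vertex and its live part -/
abbrev Mp (n p : ℕ) (R : Type) : Wv n p ⊕ Uv n p R → Uv n p R → ℤ := pm (fun _ => True) (O0 n p R).π

theorem act_p (a : Wv n p ⊕ Uv n p R → ℤ) (v : Uv n p R) : act (Mp n p R) a v =
    a (Sum.inr v) + v.elim (fun e => a (Sum.inl e)) fun _ => 0 := by
  rcases v with v | v <;> simp [act, pm, O0, add_comm]

theorem pm_pm {W X₁ X₂ : Type} {O₁ : Ov W X₁} {O₂ : Ov W X₂} {g : X₂ → X₁}
    (h : ∀ x, O₁.π (g x) = O₂.π x) (P : X₂ → Prop) : Pm O₂ O₁ (pm P g) := fun x v k => by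
  rw [← h, ((@ite_ne_right_iff _ _ (_) _ _).1 k).1.2]

theorem abs_pm {X₁ X₂ : Type} (g : X₂ → X₁) (P : X₂ → Prop) (x : X₂) (v : X₁) :
    |pm P g x v| ≤ 1 := by
  unfold pm
  split_ifs <;> simp

theorem pm_p : Pm (O0 n p R) (Ov.one _) (Mp n p R) := 
  pm_pm (O₁ := Ov.one _) (O₂ := O0 n p R) (g := (O0 n p R).π) (fun _ => rfl) _

theorem sm_p : Sm cU (O0 n p R) (Ov.one _) (Mp n p R) (fun _ => True) fun _ => True := by
  refine sm_of pm_p (abs_pm _ _) (fun v _ w => ?_) fun _ _ _ _ => trivial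
  rw [act_p]
  rcases v with v | v <;> simp [O0, Ov.one]

theorem act_4 (hc : c ≠ c') (a : (Wv n p × Fin 4) ⊕ Uv n p R → ℤ) (v : Wv n p ⊕ Uv n p R) :
    act (M4 b c c') a v = v.elim (fun e => if e.1 = b then a (Sum.inl (e, c)) + a (Sum.inl (e, c'))
      else a (Sum.inl (e, 0))) fun w => a (Sum.inr w) := by
  rcases v with v | v
  · have e : ∀ x, M4 (R := R) b c c' x (Sum.inl v) = if v.1 = b then
        (if x = Sum.inl (v, c) then 1 else 0) + if x = Sum.inl (v, c') then 1 else 0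
        else if x = Sum.inl (v, 0) then 1 else 0 := by
      rintro (⟨x, i⟩ | x)
      · by_cases k : x = v
        · subst k
          by_cases k2 : x.1 = b
          · by_cases k3 : i = c <;> simp [M4, pm, k2, k3, hc]
          · simp [M4, pm, k2]
        · simp [M4, pm, k]
      · simp [M4, pm]
    by_cases k : v.1 = b <;> simp [act, e, k, mul_add, sum_add_distrib, -Fintype.sum_sum_type]
  · simp [act, M4, pm]

theorem pm_4 : Pm (O4 n p R) (O0 n p R) (M4 b c c') := pm_pm (by rintro (x | x) <;> rfl) _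

theorem sm_4 (hc : c ≠ c') : Sm cU (O4 n p R) (O0 n p R) (M4 b c c') (P4 b) fun _ => True := by
  refine sm_of pm_4 (abs_pm _ _) (fun v _ w => ?_) fun x v k _ => ?_
  · rw [act_4 hc]
    rcases v with v | v <;> simp [O0, O4]
  · have := ((@ite_ne_right_iff _ _ (_) _ _).1 k).1.1
    rcases x with x | x
    · by_cases k : x.1.1 = b
      · exact Or.inl k
      · exact Or.inr (by simpa [k] using this)
    · trivial

end

end Vale.Agent.P057EF
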